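import Vale.Agent.P181.TRT.Defs
import Vale.Agent.P181.H879.Fill

set_option autoImplicit false

/-!
# P181, TRT (helper879): (TR6)

A content with all entries at most `s` is better than a content with all entries at least `s`.
-/

namespace Vale.Agent.P181.TRT.H879

/-- **(TR6)** -/
theorem majT : MajT := fun _ s _ _ _ _ c u mu hc hu h => Vale.Agent.P181.H879.fill c u mu s hc hu h

end Vale.Agent.P181.TRT.H879
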